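import Mathlib

open scoped InnerProductSpace ComplexOrder

namespace Vale.Agent.P083

theorem exists_rep (O : Type) [CStarAlgebra O] [Nontrivial O] :
    ∃ (H : Type) (_ : NormedAddCommGroup H) (_ : InnerProductSpace ℂ H) (_ : CompleteSpace H)
      (_ : O →⋆ₐ[ℂ] (H →L[ℂ] H)) (ξ : H), ‖ξ‖ = 1 := by
  let _ := CStarAlgebra.spectralOrder O
  have _ := CStarAlgebra.spectralOrderedRing O
  obtain ⟨φ, h1, h2⟩ := exists_dual_vector'' ℂ (1 : O)
  rw [norm_one] at h2
  have h2' : φ 1 = 1 := by simpa using h2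
  have hb : ∀ x, ‖φ x‖ ≤ ‖x‖ := fun x => (φ.le_opNorm x).trans (by
    have := norm_nonneg x; nlinarith)
  have him : ∀ a : O, IsSelfAdjoint a → (φ a).im = 0 := by
    intro a ha
    have key : ∀ t : ℝ, 2 * t * (φ a).im ≤ ‖a‖ ^ 2 := by
      intro t
      have e1 : star (a + (t * Complex.I : ℂ) • (1 : O)) * (a + (t * Complex.I : ℂ) • (1 : O))
          = a * a + ((t ^ 2 : ℝ) : ℂ) • (1 : O) := by
        rw [star_add, ha.star_eq, star_smul, star_one]
        simp only [add_mul, mul_add, smul_mul_assoc, mul_smul_comm, one_mul, mul_one,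
          star_mul', RCLike.star_def, Complex.conj_ofReal, Complex.conj_I]
        have : (t * Complex.I : ℂ) * (t * -Complex.I) = ((t ^ 2 : ℝ) : ℂ) := by
          push_cast; linear_combination (-(t : ℂ) ^ 2) * Complex.I_mul_I
        rw [← this]
        module
      have e2 : ‖a + (t * Complex.I : ℂ) • (1 : O)‖ ^ 2 ≤ ‖a‖ ^ 2 + t ^ 2 := by
        rw [sq, ← CStarRing.norm_star_mul_self, e1]
        refine (norm_add_le _ _).trans (add_le_add ((norm_mul_le _ _).trans (sq _).ge) ?_)
        rw [norm_smul, norm_one, mul_one, Complex.norm_real, Real.norm_eq_abs,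
          abs_of_nonneg (sq_nonneg t)]
      have e3 := (Complex.abs_im_le_norm _).trans (hb (a + (t * Complex.I : ℂ) • (1 : O)))
      rw [map_add, map_smul, h2'] at e3
      have e4 : (φ a + (t * Complex.I : ℂ) • (1 : ℂ)).im = (φ a).im + t := by simp
      rw [e4] at e3
      have e5 := pow_le_pow_left₀ (abs_nonneg _) e3 2
      rw [sq_abs] at e5
      nlinarith [sq_nonneg (φ a).im]
    by_contra h
    have := key ((‖a‖ ^ 2 + 1) / (φ a).im)
    rw [mul_assoc, div_mul_cancel₀ _ h] at this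
    nlinarith [sq_nonneg ‖a‖]
  have hpos : ∀ a : O, 0 ≤ a → 0 ≤ φ a := by
    intro a ha
    have hs := IsSelfAdjoint.of_nonneg ha
    have e1 : ‖algebraMap ℝ O ‖a‖ - a‖ ≤ ‖a‖ := by
      rw [CStarAlgebra.norm_le_iff_le_algebraMap _ (norm_nonneg a)
        (sub_nonneg.2 hs.le_algebraMap_norm_self)]
      exact sub_le_self _ ha
    have e2 := (Complex.re_le_norm _).trans ((hb _).trans e1)
    have e3 : φ (algebraMap ℝ O ‖a‖) = ‖a‖ := by
      rw [Algebra.algebraMap_eq_smul_one, ← Complex.coe_smul, map_smul, h2']; simp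
    rw [map_sub, e3] at e2
    rw [Complex.nonneg_iff]
    exact ⟨by simpa using e2, (him a hs).symm⟩
  let f : O →ₚ[ℂ] ℂ := PositiveLinearMap.mk₀ φ.toLinearMap hpos
  refine ⟨f.GNS, inferInstance, inferInstance, inferInstance, f.gnsStarAlgHom,
    (f.toPreGNS 1 : f.PreGNS), ?_⟩
  rw [UniformSpace.Completion.norm_coe, f.preGNS_norm_def]
  have : f 1 = 1 := h2'
  simp [this]

end Vale.Agent.P083
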